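import Vale.Agent.P160.Inter

namespace Vale.Agent.P160

open Matrix

/-- Second Bonferroni inequality for finite sets. -/
lemma bonferroni {ι α : Type*} [DecidableEq ι] [DecidableEq α] (s : Finset ι)
    (E : ι → Finset α) :
    2 * ∑ a ∈ s, (E a).card
      ≤ 2 * (s.biUnion E).card + ∑ p ∈ s.offDiag, (E p.1 ∩ E p.2).card := by
  set U := s.biUnion E with hU
  have h1 : ∑ a ∈ s, (E a).card = ∑ x ∈ U, (s.filter (fun a => x ∈ E a)).card := by
    have e1 : ∀ a ∈ s, (E a).card = ∑ x ∈ U, if x ∈ E a then 1 else 0 := by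
      intro a ha
      rw [Finset.sum_ite_mem, Finset.sum_const, smul_eq_mul, mul_one]
      congr 1
      ext x
      simp only [Finset.mem_inter]
      constructor
      · intro hx
        exact ⟨Finset.mem_biUnion.mpr ⟨a, ha, hx⟩, hx⟩
      · intro hx
        exact hx.2
    rw [Finset.sum_congr rfl e1, Finset.sum_comm]
    apply Finset.sum_congr rfl
    intro x _
    rw [Finset.card_filter]
  have h2 : ∑ p ∈ s.offDiag, (E p.1 ∩ E p.2).card
      = ∑ x ∈ U, ((s.filter (fun a => x ∈ E a)).offDiag).card := by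
    have e1 : ∀ p ∈ s.offDiag, (E p.1 ∩ E p.2).card
        = ∑ x ∈ U, if x ∈ E p.1 ∩ E p.2 then 1 else 0 := by
      intro p hp
      rw [Finset.sum_ite_mem, Finset.sum_const, smul_eq_mul, mul_one]
      congr 1
      ext x
      simp only [Finset.mem_inter]
      constructor
      · intro hx
        exact ⟨Finset.mem_biUnion.mpr ⟨p.1, (Finset.mem_offDiag.mp hp).1, hx.1⟩, hx⟩
      · intro hx
        exact hx.2
    rw [Finset.sum_congr rfl e1, Finset.sum_comm]
    apply Finset.sum_congr rfl
    intro x _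
    rw [← Finset.card_filter]
    congr 1
    ext p
    simp only [Finset.mem_filter, Finset.mem_offDiag, Finset.mem_inter]
    tauto
  rw [h1, h2, Finset.mul_sum, Finset.card_eq_sum_ones, Finset.mul_sum, ← Finset.sum_add_distrib]
  apply Finset.sum_le_sum
  intro x hx
  obtain ⟨a, ha, hxa⟩ := Finset.mem_biUnion.mp hx
  have hpos : 1 ≤ (s.filter (fun a => x ∈ E a)).card := by
    apply Finset.card_pos.mpr
    exact ⟨a, Finset.mem_filter.mpr ⟨ha, hxa⟩⟩
  rw [Finset.offDiag_card]
  generalize (s.filter (fun a => x ∈ E a)).card = m at hpos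
  obtain ⟨k, rfl⟩ : ∃ k, m = k + 1 := ⟨m - 1, by omega⟩
  have : (k + 1) * (k + 1) - (k + 1) = k * k + k := by
    have : (k + 1) * (k + 1) = k * k + k + (k + 1) := by ring
    omega
  rw [this]
  rcases Nat.eq_zero_or_pos k with hk | hk
  · subst hk; norm_num
  · nlinarith

end Vale.Agent.P160
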