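import Vale.Agent.P160.Defs

namespace Vale.Agent.P160

open Matrix

variable {n : ℕ}

lemma mem_symSign {A : Matrix (Fin n) (Fin n) ℤˣ} : A ∈ symSign n ↔ ∀ r c, A r c = A c r := by
  simp only [symSign, Finset.mem_filter, Finset.mem_univ, true_and]
  constructor
  · intro h r c
    exact (h.apply r c).symm
  · intro h
    apply Matrix.IsSymm.ext
    intro r c
    exact h c r

/-- The event: row `i` equals `s` times row `j`. -/
def ev (n : ℕ) (i j : Fin n) (s : ℤˣ) : Finset (Matrix (Fin n) (Fin n) ℤˣ) :=
  (symSign n).filter (fun A => ∀ c, A i c = s * A j c)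

lemma mem_ev {i j : Fin n} {s : ℤˣ} {A : Matrix (Fin n) (Fin n) ℤˣ} :
    A ∈ ev n i j s ↔ (∀ r c, A r c = A c r) ∧ ∀ c, A i c = s * A j c := by
  simp only [ev, Finset.mem_filter, mem_symSign]

lemma unit_sq (s : ℤˣ) : s * s = 1 := by
  rcases Int.units_eq_one_or s with h | h <;> simp [h]

lemma det_eq_zero_of_mem_ev {i j : Fin n} (hij : i ≠ j) {s : ℤˣ}
    {A : Matrix (Fin n) (Fin n) ℤˣ} (hA : A ∈ ev n i j s) : (toInt A).det = 0 := by
  have h2 := (mem_ev.mp hA).2
  have key := Matrix.det_updateRow_add_smul_self (toInt A) hij (-(s : ℤ))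
  rw [← key]
  apply Matrix.det_eq_zero_of_row_eq_zero i
  intro c
  simp only [updateRow_self, Pi.add_apply, Pi.smul_apply, smul_eq_mul, toInt, map_apply]
  rw [h2 c]
  push_cast
  ring

/-- Overwrite row and column `i` of `A` by the vector `u`. -/
def overwrite (A : Matrix (Fin n) (Fin n) ℤˣ) (i : Fin n) (u : Fin n → ℤˣ) :
    Matrix (Fin n) (Fin n) ℤˣ :=
  fun r c => if r = i then u c else if c = i then u r else A r c

lemma overwrite_symm {A : Matrix (Fin n) (Fin n) ℤˣ} (hA : ∀ r c, A r c = A c r) (i : Fin n)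
    (u : Fin n → ℤˣ) : ∀ r c, overwrite A i u r c = overwrite A i u c r := by
  intro r c
  unfold overwrite
  by_cases hr : r = i <;> by_cases hc : c = i <;> simp [hr, hc, hA r c]

/-- `|Ω| ≤ 2^n |E(i,j,s)|`. -/
lemma card_symSign_le (i j : Fin n) (hij : i ≠ j) (s : ℤˣ) :
    (symSign n).card ≤ 2 ^ n * (ev n i j s).card := by
  have hcard : ((Finset.univ : Finset (Fin n → ℤˣ)) ×ˢ (ev n i j s)).card
      = 2 ^ n * (ev n i j s).card := by
    rw [Finset.card_product, Finset.card_univ, Fintype.card_fun]
    simp
  rw [← hcard]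
  refine Finset.card_le_card_of_injOn
    (fun A => (fun c => A i c,
      overwrite A i (fun c => if c = i then A j j else s * A j c))) ?_ ?_
  · intro A hA
    have hs := mem_symSign.mp hA
    simp only [Finset.coe_product, Finset.coe_univ, Set.mem_prod, Set.mem_univ, true_and,
      Finset.mem_coe]
    rw [mem_ev]
    refine ⟨overwrite_symm hs i _, ?_⟩
    intro c
    unfold overwrite
    by_cases hc : c = i
    · subst hc
      simp [hij.symm, ← mul_assoc]
    · simp [hc, hij.symm]
  · intro A hA B hB h
    have hsA := mem_symSign.mp hA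
    have hsB := mem_symSign.mp hB
    simp only [Prod.mk.injEq] at h
    obtain ⟨h1, h2⟩ := h
    ext r c
    by_cases hr : r = i
    · subst hr
      exact congrArg Units.val (congrFun h1 c)
    · by_cases hc : c = i
      · subst hc
        rw [hsA r c, hsB r c]
        exact congrArg Units.val (congrFun h1 r)
      · have := congrFun (congrFun h2 r) c
        simp only [overwrite, hr, hc, if_false] at this
        exact congrArg Units.val this

end Vale.Agent.P160
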