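import Mathlib

namespace Vale.Agent.P160

open Matrix

/-- The finite set of symmetric `n × n` matrices with entries in `{1, -1}` (units of `ℤ`). -/
def symSign (n : ℕ) : Finset (Matrix (Fin n) (Fin n) ℤˣ) :=
  Finset.univ.filter (fun A => A.IsSymm)

/-- The integer matrix with the same entries. -/
def toInt {n : ℕ} (A : Matrix (Fin n) (Fin n) ℤˣ) : Matrix (Fin n) (Fin n) ℤ :=
  A.map (fun u => (u : ℤ))

/-- `q n`: the fraction of symmetric sign matrices that are singular, that is the probability that
a uniformly random symmetric sign matrix (independent uniform signs on and above the diagonal)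
has determinant zero. -/
noncomputable def q (n : ℕ) : ℝ :=
  (((symSign n).filter (fun A => (toInt A).det = 0)).card : ℝ) / ((symSign n).card : ℝ)

end Vale.Agent.P160
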