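import Vale.Agent.P160.Count

namespace Vale.Agent.P160

open Matrix

variable {n : ℕ}

lemma ev2_ext {x x' y y' : Fin n} (h1 : x' ≠ x) (h2 : x' ≠ y) (h3 : y' ≠ x)
    (h4 : y' ≠ y) {s t : ℤˣ} {A B : Matrix (Fin n) (Fin n) ℤˣ}
    (hA : A ∈ ev n x x' s ∩ ev n y y' t) (hB : B ∈ ev n x x' s ∩ ev n y y' t)
    (hAB : ∀ r c, r ≠ x → r ≠ y → c ≠ x → c ≠ y → A r c = B r c) : A = B := by
  rw [Finset.mem_inter, mem_ev, mem_ev] at hA hB
  obtain ⟨⟨sA, xA⟩, ⟨-, yA⟩⟩ := hA
  obtain ⟨⟨sB, xB⟩, ⟨-, yB⟩⟩ := hB
  have e1 : ∀ c, c ≠ x → c ≠ y → A x c = B x c := by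
    intro c hc1 hc2
    rw [xA c, xB c, hAB x' c h1 h2 hc1 hc2]
  have e2 : ∀ c, c ≠ x → c ≠ y → A y c = B y c := by
    intro c hc1 hc2
    rw [yA c, yB c, hAB y' c h3 h4 hc1 hc2]
  have e3 : A x y = B x y := by
    rw [xA y, xB y, sA x' y, sB x' y, e2 x' h1 h2]
  have e4 : A x x = B x x := by
    rw [xA x, xB x, sA x' x, sB x' x, e1 x' h1 h2]
  have e5 : A y y = B y y := by
    rw [yA y, yB y, sA y' y, sB y' y, e2 y' h3 h4]
  have rowx : ∀ c, A x c = B x c := by
    intro c
    by_cases hc1 : c = x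
    · rw [hc1]; exact e4
    · by_cases hc2 : c = y
      · rw [hc2]; exact e3
      · exact e1 c hc1 hc2
  have rowy : ∀ c, A y c = B y c := by
    intro c
    by_cases hc1 : c = x
    · rw [hc1, sA y x, sB y x]; exact e3
    · by_cases hc2 : c = y
      · rw [hc2]; exact e5
      · exact e2 c hc1 hc2
  funext r c
  by_cases hr1 : r = x
  · rw [hr1]; exact rowx c
  · by_cases hr2 : r = y
    · rw [hr2]; exact rowy c
    · by_cases hc1 : c = x
      · rw [hc1, sA r x, sB r x]; exact rowx r
      · by_cases hc2 : c = y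
        · rw [hc2, sA r y, sB r y]; exact rowy r
        · exact hAB r c hr1 hr2 hc1 hc2

lemma two_pow_le_card_norm (x : Fin n) :
    2 ^ n ≤ 2 * ((Finset.univ : Finset (Fin n → ℤˣ)).filter (fun v => v x = 1)).card := by
  have hcard : ((Finset.univ : Finset ℤˣ) ×ˢ
      ((Finset.univ : Finset (Fin n → ℤˣ)).filter (fun v => v x = 1))).card
      = 2 * ((Finset.univ : Finset (Fin n → ℤˣ)).filter (fun v => v x = 1)).card := by
    rw [Finset.card_product, Finset.card_univ]
    simp
  have hleft : (Finset.univ : Finset (Fin n → ℤˣ)).card = 2 ^ n := by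
    rw [Finset.card_univ, Fintype.card_fun]
    simp
  rw [← hcard, ← hleft]
  refine Finset.card_le_card_of_injOn (fun v => (v x, Function.update v x 1)) ?_ ?_
  · intro v _
    simp only [Finset.coe_product, Set.mem_prod, Finset.mem_coe, Finset.mem_univ, true_and,
      Finset.mem_filter, Function.update_self]
  · intro v _ w _ h
    simp only [Prod.mk.injEq] at h
    funext c
    by_cases hc : c = x
    · rw [hc]; exact h.1
    · have := congrFun h.2 c
      simpa [Function.update_of_ne hc] using this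

/-- `4^n |E ∩ E'| ≤ 2 |Ω|` for two row relations eliminating two different rows. -/
lemma card_inter_le {x x' y y' : Fin n} (hxy : x ≠ y) (h1 : x' ≠ x) (h2 : x' ≠ y) (h3 : y' ≠ x)
    (h4 : y' ≠ y) (s t : ℤˣ) :
    4 ^ n * (ev n x x' s ∩ ev n y y' t).card ≤ 2 * (symSign n).card := by
  set E := ev n x x' s ∩ ev n y y' t with hE
  set Vx := (Finset.univ : Finset (Fin n → ℤˣ)).filter (fun v => v x = 1) with hVx
  have hU : (Finset.univ : Finset (Fin n → ℤˣ)).card = 2 ^ n := by
    rw [Finset.card_univ, Fintype.card_fun]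
    simp
  have step : ((Finset.univ : Finset (Fin n → ℤˣ)) ×ˢ (Vx ×ˢ E)).card ≤ (symSign n).card := by
    refine Finset.card_le_card_of_injOn
      (fun p => overwrite (overwrite p.2.2 y p.2.1) x p.1) ?_ ?_
    · rintro ⟨u, v, A⟩ hp
      simp only [Finset.coe_product, Set.mem_prod, Finset.mem_coe] at hp
      have hA : A ∈ ev n x x' s := (Finset.mem_inter.mp hp.2.2).1
      have hs := (mem_ev.mp hA).1
      simp only [Finset.mem_coe]
      rw [mem_symSign]
      exact overwrite_symm (overwrite_symm hs y v) x u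
    · rintro ⟨u, v, A⟩ hp ⟨u', v', A'⟩ hp' h
      simp only [Finset.coe_product, Set.mem_prod, Finset.mem_coe] at hp hp'
      simp only at h
      have hu : u = u' := by
        funext c
        have := congrFun (congrFun h x) c
        simpa [overwrite] using this
      have hv : v = v' := by
        funext c
        by_cases hc : c = x
        · have a1 : v x = 1 := (Finset.mem_filter.mp hp.2.1).2
          have a2 : v' x = 1 := (Finset.mem_filter.mp hp'.2.1).2
          rw [hc, a1, a2]
        · have := congrFun (congrFun h y) c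
          simpa [overwrite, hxy.symm, hc] using this
      have hA : A = A' := by
        apply ev2_ext h1 h2 h3 h4 hp.2.2 hp'.2.2
        intro r c hr1 hr2 hc1 hc2
        have := congrFun (congrFun h r) c
        simpa [overwrite, hr1, hr2, hc1, hc2] using this
      rw [hu, hv, hA]
  rw [Finset.card_product, Finset.card_product, hU] at step
  have hV := two_pow_le_card_norm x
  rw [← hVx] at hV
  have h44 : (4 : ℕ) ^ n = 2 ^ n * 2 ^ n := by
    rw [← mul_pow]
    norm_num
  calc 4 ^ n * E.card = 2 ^ n * (2 ^ n * E.card) := by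
        rw [h44, mul_assoc]
    _ ≤ 2 ^ n * ((2 * Vx.card) * E.card) := by gcongr
    _ = 2 * (2 ^ n * (Vx.card * E.card)) := by ring
    _ ≤ 2 * (symSign n).card := by gcongr

end Vale.Agent.P160
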