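import Vale.Agent.P160.Pairs

namespace Vale.Agent.P160

open Matrix

variable {n : ℕ}

lemma symSign_card_pos (n : ℕ) : 0 < (symSign n).card := by
  apply Finset.card_pos.mpr
  refine ⟨Matrix.of (fun _ _ => 1), ?_⟩
  rw [mem_symSign]
  intro r c
  rfl

/-- The event attached to an index. -/
def evI (n : ℕ) (a : Fin n × Fin n × ℤˣ) : Finset (Matrix (Fin n) (Fin n) ℤˣ) :=
  ev n a.1 a.2.1 a.2.2

lemma union_subset_singular (n : ℕ) :
    (idx n).biUnion (evI n) ⊆ (symSign n).filter (fun A => (toInt A).det = 0) := by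
  intro A hA
  obtain ⟨a, ha, hAa⟩ := Finset.mem_biUnion.mp hA
  have hlt : a.1 < a.2.1 := (Finset.mem_filter.mp ha).2
  rw [Finset.mem_filter]
  refine ⟨?_, det_eq_zero_of_mem_ev (ne_of_lt hlt) hAa⟩
  exact (Finset.mem_filter.mp hAa).1

lemma pair_bound {a b : Fin n × Fin n × ℤˣ} (ha : a ∈ idx n) (hb : b ∈ idx n) (hab : a ≠ b) :
    4 ^ n * (evI n a ∩ evI n b).card ≤ 2 * (symSign n).card := by
  obtain ⟨i, j, s⟩ := a
  obtain ⟨k, l, t⟩ := b
  have hij : i < j := (Finset.mem_filter.mp ha).2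
  have hkl : k < l := (Finset.mem_filter.mp hb).2
  simp only [evI]
  by_cases hsame : i = k ∧ j = l
  · obtain ⟨rfl, rfl⟩ := hsame
    have hst : s ≠ t := by
      intro h
      apply hab
      rw [h]
    rw [inter_same_eq_empty hst]
    simp
  · apply card_inter_le' (ne_of_lt hij) (ne_of_lt hkl) hsame
    rintro ⟨rfl, rfl⟩
    exact lt_asymm hij hkl

/-- The counting form of the lower bound. -/
lemma count_bound (n : ℕ) :
    4 ^ n * ((symSign n).filter (fun A => (toInt A).det = 0)).card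
        + (n * (n - 1)) * (n * (n - 1) - 1) * (symSign n).card
      ≥ 2 ^ n * (n * (n - 1)) * (symSign n).card := by
  set Om := (symSign n).card with hOm
  set S := ((symSign n).filter (fun A => (toInt A).det = 0)).card with hS
  set M := n * (n - 1) with hM
  have hb := bonferroni (idx n) (evI n)
  have hU : ((idx n).biUnion (evI n)).card ≤ S := Finset.card_le_card (union_subset_singular n)
  have hsum1 : M * Om ≤ 2 ^ n * ∑ a ∈ idx n, (evI n a).card := by
    rw [Finset.mul_sum, hM, ← card_idx n, ← smul_eq_mul, ← Finset.sum_const]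
    apply Finset.sum_le_sum
    intro a ha
    have hlt : a.1 < a.2.1 := (Finset.mem_filter.mp ha).2
    exact card_symSign_le a.1 a.2.1 (ne_of_lt hlt) a.2.2
  have hsum2 : 4 ^ n * ∑ p ∈ (idx n).offDiag, (evI n p.1 ∩ evI n p.2).card
      ≤ (M * (M - 1)) * (2 * Om) := by
    have hc : (idx n).offDiag.card = M * (M - 1) := by
      rw [Finset.offDiag_card, card_idx n, ← hM, Nat.mul_sub, mul_one]
    rw [Finset.mul_sum, ← hc, ← smul_eq_mul, ← Finset.sum_const]
    apply Finset.sum_le_sum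
    intro p hp
    rw [Finset.mem_offDiag] at hp
    exact pair_bound hp.1 hp.2.1 hp.2.2
  have h44 : (4 : ℕ) ^ n = 2 ^ n * 2 ^ n := by
    rw [← mul_pow]
    norm_num
  have key : 2 * (2 ^ n * M * Om) ≤ 2 * (4 ^ n * S + M * (M - 1) * Om) := by
    calc 2 * (2 ^ n * M * Om) = 2 * (2 ^ n * (M * Om)) := by ring
      _ ≤ 2 * (2 ^ n * (2 ^ n * ∑ a ∈ idx n, (evI n a).card)) := by gcongr
      _ = 4 ^ n * (2 * ∑ a ∈ idx n, (evI n a).card) := by rw [h44]; ring
      _ ≤ 4 ^ n * (2 * ((idx n).biUnion (evI n)).card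
            + ∑ p ∈ (idx n).offDiag, (evI n p.1 ∩ evI n p.2).card) := by gcongr
      _ = 2 * (4 ^ n * ((idx n).biUnion (evI n)).card)
            + 4 ^ n * ∑ p ∈ (idx n).offDiag, (evI n p.1 ∩ evI n p.2).card := by ring
      _ ≤ 2 * (4 ^ n * S) + (M * (M - 1)) * (2 * Om) := by gcongr
      _ = 2 * (4 ^ n * S + M * (M - 1) * Om) := by ring
  exact Nat.le_of_mul_le_mul_left key (by norm_num)

/-- The explicit lower bound for `q n`. -/
theorem q_lower (n : ℕ) :
    ((n : ℝ) * ((n : ℝ) - 1)) / 2 ^ n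
        - ((n : ℝ) * ((n : ℝ) - 1)) * ((n : ℝ) * ((n : ℝ) - 1) - 1) / 4 ^ n ≤ q n := by
  have hc := count_bound n
  have hpos : (0 : ℝ) < ((symSign n).card : ℝ) := by exact_mod_cast symSign_card_pos n
  unfold q
  set Om := (symSign n).card with hOm
  set S := ((symSign n).filter (fun A => (toInt A).det = 0)).card with hS
  rcases Nat.lt_or_ge n 2 with hn | hn
  · -- `n = 0` or `n = 1`: the left side is zero
    have h0 : (n : ℝ) * ((n : ℝ) - 1) = 0 := by
      interval_cases n <;> simp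
    rw [h0]
    simp only [zero_div, zero_mul, sub_zero]
    positivity
  · have hM1 : 1 ≤ n * (n - 1) := by
      have : 1 ≤ n - 1 := by omega
      nlinarith
    have hcast : ((n * (n - 1) : ℕ) : ℝ) = (n : ℝ) * ((n : ℝ) - 1) := by
      rw [Nat.cast_mul, Nat.cast_sub (by omega)]
      simp
    have hcast2 : ((n * (n - 1) - 1 : ℕ) : ℝ) = (n : ℝ) * ((n : ℝ) - 1) - 1 := by
      rw [Nat.cast_sub hM1, hcast]
      simp
    have hr : (2 : ℝ) ^ n * ((n : ℝ) * ((n : ℝ) - 1)) * (Om : ℝ)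
        ≤ 4 ^ n * (S : ℝ)
          + ((n : ℝ) * ((n : ℝ) - 1)) * ((n : ℝ) * ((n : ℝ) - 1) - 1) * (Om : ℝ) := by
      rw [← hcast2, ← hcast]
      exact_mod_cast hc
    have h44 : (4 : ℝ) ^ n = 2 ^ n * 2 ^ n := by
      rw [← mul_pow]
      norm_num
    have h2pos : (0 : ℝ) < 2 ^ n := by positivity
    rw [le_div_iff₀ hpos, h44]
    rw [h44] at hr
    have e : ((n : ℝ) * ((n : ℝ) - 1) / 2 ^ n
        - (n : ℝ) * ((n : ℝ) - 1) * ((n : ℝ) * ((n : ℝ) - 1) - 1) / (2 ^ n * 2 ^ n)) * (Om : ℝ)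
        = ((2 : ℝ) ^ n * ((n : ℝ) * ((n : ℝ) - 1)) * (Om : ℝ)
          - ((n : ℝ) * ((n : ℝ) - 1)) * ((n : ℝ) * ((n : ℝ) - 1) - 1) * (Om : ℝ))
            / (2 ^ n * 2 ^ n) := by
      field_simp
    rw [e, div_le_iff₀ (by positivity)]
    linarith

end Vale.Agent.P160
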