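import Vale.Agent.P160.Bonf

namespace Vale.Agent.P160

open Matrix

variable {n : ℕ}

lemma ev_swap (i j : Fin n) (s : ℤˣ) : ev n i j s = ev n j i s := by
  ext A
  rw [mem_ev, mem_ev]
  constructor
  · rintro ⟨h1, h2⟩
    refine ⟨h1, fun c => ?_⟩
    rw [h2 c, ← mul_assoc, unit_sq, one_mul]
  · rintro ⟨h1, h2⟩
    refine ⟨h1, fun c => ?_⟩
    rw [h2 c, ← mul_assoc, unit_sq, one_mul]

lemma ev_trans {i j k : Fin n} {s t : ℤˣ} {A : Matrix (Fin n) (Fin n) ℤˣ}
    (h1 : A ∈ ev n i j s) (h2 : A ∈ ev n j k t) : A ∈ ev n i k (s * t) := by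
  rw [mem_ev] at h1 h2 ⊢
  refine ⟨h1.1, fun c => ?_⟩
  rw [h1.2 c, h2.2 c, mul_assoc]

/-- Two different row relations hold together with probability at most `2 / 4^n`. -/
lemma card_inter_le' {i j k l : Fin n} (hij : i ≠ j) (hkl : k ≠ l)
    (hne1 : ¬ (i = k ∧ j = l)) (hne2 : ¬ (i = l ∧ j = k)) (s t : ℤˣ) :
    4 ^ n * (ev n i j s ∩ ev n k l t).card ≤ 2 * (symSign n).card := by
  by_cases hik : i = k
  · subst hik
    have hjl : j ≠ l := fun h => hne1 ⟨rfl, h⟩
    rw [ev_swap i j s, ev_swap i l t]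
    exact card_inter_le hjl hij hkl hij hkl s t
  by_cases hil : i = l
  · subst hil
    have hjk : j ≠ k := fun h => hne2 ⟨rfl, h⟩
    have hsub : ev n i j s ∩ ev n k i t ⊆ ev n i j s ∩ ev n k j (t * s) := by
      intro A hA
      rw [Finset.mem_inter] at hA ⊢
      exact ⟨hA.1, ev_trans hA.2 hA.1⟩
    calc 4 ^ n * (ev n i j s ∩ ev n k i t).card
        ≤ 4 ^ n * (ev n i j s ∩ ev n k j (t * s)).card :=
          Nat.mul_le_mul_left _ (Finset.card_le_card hsub)
      _ ≤ 2 * (symSign n).card := card_inter_le hik hij.symm hjk hij.symm hjk s (t * s)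
  by_cases hjk : j = k
  · subst hjk
    have hsub : ev n i j s ∩ ev n j l t ⊆ ev n i l (s * t) ∩ ev n j l t := by
      intro A hA
      rw [Finset.mem_inter] at hA ⊢
      exact ⟨ev_trans hA.1 hA.2, hA.2⟩
    calc 4 ^ n * (ev n i j s ∩ ev n j l t).card
        ≤ 4 ^ n * (ev n i l (s * t) ∩ ev n j l t).card :=
          Nat.mul_le_mul_left _ (Finset.card_le_card hsub)
      _ ≤ 2 * (symSign n).card :=
          card_inter_le hij (Ne.symm hil) hkl.symm (Ne.symm hil) hkl.symm (s * t) t
  · exact card_inter_le hik hij.symm hjk (Ne.symm hil) hkl.symm s t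

lemma inter_same_eq_empty {i j : Fin n} {s t : ℤˣ} (hst : s ≠ t) :
    ev n i j s ∩ ev n i j t = ∅ := by
  rw [Finset.eq_empty_iff_forall_notMem]
  intro A hA
  rw [Finset.mem_inter, mem_ev, mem_ev] at hA
  apply hst
  have h := (hA.1.2 i).symm.trans (hA.2.2 i)
  exact mul_right_cancel h

/-- The index set of the events: pairs `i < j` together with a sign. -/
def idx (n : ℕ) : Finset (Fin n × Fin n × ℤˣ) :=
  Finset.univ.filter (fun a => a.1 < a.2.1)

lemma card_idx (n : ℕ) : (idx n).card = n * (n - 1) := by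
  have h1 : idx n = ((Finset.univ : Finset (Fin n × Fin n)).filter (fun p => p.1 < p.2)
      ×ˢ (Finset.univ : Finset ℤˣ)).map
      ⟨fun q => (q.1.1, q.1.2, q.2), by
        rintro ⟨⟨a, b⟩, c⟩ ⟨⟨a', b'⟩, c'⟩ h
        simp only [Prod.mk.injEq] at h
        obtain ⟨h1, h2, h3⟩ := h
        rw [h1, h2, h3]⟩ := by
    ext ⟨a, b, c⟩
    simp only [idx, Finset.mem_filter, Finset.mem_univ, true_and, Finset.mem_map,
      Finset.mem_product, and_true, Prod.exists]
    constructor
    · intro h
      exact ⟨a, b, c, h, rfl⟩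
    · rintro ⟨a', b', c', h, h'⟩
      have h'' : (a', b', c') = (a, b, c) := h'
      simp only [Prod.mk.injEq] at h''
      rw [← h''.1, ← h''.2.1]
      exact h
  have h2 : 2 * ((Finset.univ : Finset (Fin n × Fin n)).filter (fun p => p.1 < p.2)).card
      = n * (n - 1) := by
    have hoff : (Finset.univ : Finset (Fin n)).offDiag.card = n * n - n := by
      rw [Finset.offDiag_card, Finset.card_univ, Fintype.card_fin]
    have hsplit : (Finset.univ : Finset (Fin n)).offDiag
        = (Finset.univ : Finset (Fin n × Fin n)).filter (fun p => p.1 < p.2)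
          ∪ (Finset.univ : Finset (Fin n × Fin n)).filter (fun p => p.2 < p.1) := by
      ext ⟨a, b⟩
      simp only [Finset.mem_offDiag, Finset.mem_univ, true_and, Finset.mem_union,
        Finset.mem_filter]
      exact lt_or_lt_iff_ne.symm
    have hdisj : Disjoint ((Finset.univ : Finset (Fin n × Fin n)).filter (fun p => p.1 < p.2))
        ((Finset.univ : Finset (Fin n × Fin n)).filter (fun p => p.2 < p.1)) := by
      rw [Finset.disjoint_left]
      rintro ⟨a, b⟩ h1 h2
      simp only [Finset.mem_filter, Finset.mem_univ, true_and] at h1 h2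
      exact lt_asymm h1 h2
    have hsw : ((Finset.univ : Finset (Fin n × Fin n)).filter (fun p => p.2 < p.1)).card
        = ((Finset.univ : Finset (Fin n × Fin n)).filter (fun p => p.1 < p.2)).card := by
      apply Finset.card_bij (fun p _ => (p.2, p.1))
      · rintro ⟨a, b⟩ h
        simpa using h
      · rintro ⟨a, b⟩ _ ⟨a', b'⟩ _ h
        simp only [Prod.mk.injEq] at h
        rw [h.1, h.2]
      · rintro ⟨a, b⟩ h
        exact ⟨(b, a), by simpa using h, rfl⟩
    rw [hsplit, Finset.card_union_of_disjoint hdisj, hsw] at hoff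
    rw [Nat.mul_sub, mul_one, ← hoff]
    ring
  rw [h1, Finset.card_map, Finset.card_product, Finset.card_univ, ← h2]
  simp [mul_comm]

end Vale.Agent.P160
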